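import Mathlib
import Vale.Agent.P230.Params
import Vale.Agent.P230.Statement
import Vale.Agent.P230.Upper

/-!
Worst-case translative covering density of convex bodies is at least of order `n log n`;
at most of order `n log n`; in particular it is not bounded by a constant times `n`.
-/

open Filter Vale.Agent.P230

namespace Vale.Agent.Results.P230.Main

theorem result :
    (∃ c : ℝ, 0 < c ∧ ∃ n₀ : ℕ, ∀ n : ℕ, n₀ ≤ n →
      ∃ K : Set (EuclideanSpace ℝ (Fin n)), IsConvexBody K ∧
        ENNReal.ofReal (c * n * Real.log n) ≤ thetaT K) ∧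
    (¬ ∃ C : ℝ, ∀ n : ℕ, 1 ≤ n → ∀ K : Set (EuclideanSpace ℝ (Fin n)), IsConvexBody K →
      thetaT K ≤ ENNReal.ofReal (C * n)) ∧
    ∃ C : ℝ, ∀ n : ℕ, 3 ≤ n → ∀ K : Set (EuclideanSpace ℝ (Fin n)), IsConvexBody K →
      thetaT K ≤ ENNReal.ofReal (C * n * Real.log n) := by
  refine ⟨⟨cD, cD_pos, eventually_atTop.1 eventually_exists_body⟩, ?_,
    100, fun n hn K hK ↦ thetaT_le hn hK⟩
  rintro ⟨C, hC⟩
  have hlog := (Real.tendsto_log_atTop.comp tendsto_natCast_atTop_atTop).eventually_gt_atTop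
    (C / cD)
  obtain ⟨n, ⟨K, hK, hle⟩, hn1, hbig⟩ :=
    (eventually_exists_body.and ((eventually_ge_atTop 2).and hlog)).exists
  simp only [Function.comp_apply, div_lt_iff₀ cD_pos] at hbig
  have hN : (2 : ℝ) ≤ n := by exact_mod_cast hn1
  have hpos : 0 < cD * n * Real.log n :=
    mul_pos (mul_pos cD_pos (by linarith)) (Real.log_pos (by linarith))
  have hlt : C * n < cD * n * Real.log n := by nlinarith
  exact absurd (hle.trans (hC n (by omega) K hK))
    (not_le.2 ((ENNReal.ofReal_lt_ofReal_iff hpos).2 hlt))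

end Vale.Agent.Results.P230.Main
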